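import Vale.Agent.P181.RG.Defs

set_option autoImplicit false

/-!
# P181, RG [DES]: the interface between the pattern of the free letters and the class letters
(literal of helper467)
-/

namespace Vale.Agent.P181.RG.H221

open Finset Function Vale.Agent.P181.RG

/-- The pattern of the free letters. -/
def Pat (u m D R k f₀ T s : ℕ) (e : Fin u → ℕ) : Prop :=
  ∃ fr : Fin R → Fin m → Option (Fin u),
    (∀ c, Thin (fr c)) ∧
    (∀ i, 2 * D + ∑ c, (univ.filter fun r => fr c r = some i).card = e i) ∧
    (∀ (τ : Equiv.Perm (Fin u)) (r : Fin m),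
      (univ.filter fun p : Fin u × Fin (2 * D) => (r : ℕ) ≠ al D (τ p.1) p.2).card +
        (univ.filter fun c => fr c r = none).card = (f₀ - r) * k) ∧
    (∀ i j : Fin u, i < j → (i : ℕ) / s = (j : ℕ) / s →
      ∃ c, ∀ r : Fin m, fr c r = if (r : ℕ) = 0 then some i
        else if (r : ℕ) = 1 then some j else none) ∧
    (∃ γ : Fin u × Fin T → Fin R, Injective γ ∧
      ∀ p r, fr (γ p) r = if (r : ℕ) = 0 then some p.1 else none) ∧
    (∃ γ : Fin u × Fin T → Fin R, Injective γ ∧
      ∀ p r, fr (γ p) r = if (r : ℕ) = 1 then some p.1 else none) ∧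
    (∃ γ : Fin m × Fin f₀ × Fin f₀ → Fin R, Injective γ ∧ ∀ p r, fr (γ p) r = none)

end Vale.Agent.P181.RG.H221
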