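import Vale.Agent.P181.RG.H221.Cnt
import Vale.Agent.P181.RG.H221.Pat

set_option autoImplicit false

/-!
# P181, RG [DES-a]: the pattern of the free letters
-/

namespace Vale.Agent.P181.RG.H221

open Finset Function Vale.Agent.P181.RG

/-- All the row columns without free letters. -/
def frA (u m f₀ : ℕ) : Fin m × Fin f₀ × Fin f₀ → Fin m → Option (Fin u) := fun _ _ => none

theorem occ_add {κ : Type} [Fintype κ] {u m : ℕ} (fr : κ → Fin m → Option (Fin u)) (r : Fin m) :
    (univ.filter fun c => fr c r = none).card + occ fr r = Fintype.card κ := by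
  rw [Finset.card_filter, occ, ← Finset.sum_add_distrib]
  calc (∑ c : κ, ((if fr c r = none then 1 else 0) + if fr c r = none then 0 else 1)) =
      ∑ c : κ, 1 := by
        refine Finset.sum_congr rfl fun c _ => ?_
        split_ifs <;> rfl
    _ = Fintype.card κ := by simp

theorem form_add {u m D : ℕ} (τ : Equiv.Perm (Fin u)) (r : Fin m) :
    (univ.filter fun p : Fin u × Fin (2 * D) => (r : ℕ) ≠ al D (τ p.1) p.2).card +
      occ (frF u m D 1) r = u * (2 * D) := by
  have h := occ_add (frF u m D τ) r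
  rw [occ_frF, Fintype.card_prod, Fintype.card_fin, Fintype.card_fin] at h
  rw [← h]
  congr 2
  ext p
  simp [frF]

theorem thin_of {u m : ℕ} (g : Fin m → Option (Fin u))
    (h : ∀ r r', g r ≠ none → g r' ≠ none → r = r') : Thin g := Or.inl h

theorem desA (hE : ExtRG) (u m D R k f₀ F₀ T s : ℕ) (e : Fin u → ℕ) (hm : 3 ≤ m) (hu : 1 ≤ u)
    (hs : 1 ≤ s) (hR : u * (2 * D) + R = f₀ * k + F₀)
    (he : 2 * ∑ i, e i = 2 * (m * F₀) + k * (m * (m - 1)))
    (hei : ∀ i, 2 * D + s + 2 * T ≤ e i) (hF : u * (2 * D + s + T) ≤ F₀)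
    (hb : m * f₀ ^ 2 + m * F₀ + k * m ^ 2 ≤ f₀ * k) :
    Pat u m D R k f₀ T s e := by
  classical
  -- the numbers of fill columns
  have hx : ∀ r : Fin m, ∃ x : ℕ, x + (occ (frF u m D 1) r + occ (frP u m s) r +
      occ (frC u m T) r) = F₀ + r * k := by
    intro r
    have h1 := occ_frF_le (m := m) (D := D) (1 : Equiv.Perm (Fin u)) r
    have h2 := (occ_frP_le (u := u) (s := s) r).trans (card_pair hs)
    have h3 := occ_frC_le (u := u) (T := T) r
    have h4 : u * (2 * D + s + T) = u * (2 * D) + u * s + u * T := by ring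
    exact ⟨F₀ + r * k - (occ (frF u m D 1) r + occ (frP u m s) r + occ (frC u m T) r), by omega⟩
  choose x hx using hx
  have hy : ∀ i : Fin u, ∃ y : ℕ, y + (2 * D + cnt (frP u m s) i + 2 * T) = e i := by
    intro i
    have h1 := cnt_frP hs hm i
    have h2 := hei i
    exact ⟨e i - (2 * D + cnt (frP u m s) i + 2 * T), by omega⟩
  choose y hy using hy
  have sx : ∑ r, x r + (∑ r, occ (frF u m D 1) r + ∑ r, occ (frP u m s) r +
      ∑ r, occ (frC u m T) r) = m * F₀ + (∑ r : Fin m, (r : ℕ)) * k := by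
    rw [← Finset.sum_add_distrib, ← Finset.sum_add_distrib, ← Finset.sum_add_distrib,
      Finset.sum_congr rfl fun r _ => hx r, Finset.sum_add_distrib, Finset.sum_mul]
    simp
  have sy : ∑ i, y i + (u * (2 * D) + ∑ i, cnt (frP u m s) i + u * (2 * T)) = ∑ i, e i := by
    rw [← Finset.sum_congr rfl fun i _ => hy i, Finset.sum_add_distrib,
      Finset.sum_add_distrib, Finset.sum_add_distrib]
    simp
  have sm : (∑ r : Fin m, (r : ℕ)) * 2 = m * (m - 1) := by
    rw [Fin.sum_univ_eq_sum_range (fun r => r) m, Finset.sum_range_id_mul_two]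
  have s1 : ∑ r, occ (frF u m D 1) r = u * (2 * D) := by
    rw [← sum_cnt, Finset.sum_congr rfl fun i _ => cnt_frF hm 1 i]
    simp
  have s2 : ∑ r, occ (frC u m T) r = u * (2 * T) := by
    rw [← sum_cnt, Finset.sum_congr rfl fun i _ => cnt_frC hm i]
    simp
  have s3 : ∑ i, cnt (frP u m s) i = ∑ r, occ (frP u m s) r := sum_cnt _
  have s4 : Fintype.card (PairT u s) ≤ ∑ r, occ (frP u m s) r := card_pair_le hm
  have hxy : ∑ i, y i = ∑ r, x r := by
    have h1 : 2 * ((∑ r : Fin m, (r : ℕ)) * k) = k * (m * (m - 1)) := by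
      rw [← sm]; ring
    omega
  have hM : u * (2 * D) + (Fintype.card (PairT u s) + (2 * (u * T) + m * (f₀ * f₀)) +
      ∑ r, x r) ≤ f₀ * k := by
    have h1 : 2 * ((∑ r : Fin m, (r : ℕ)) * k) = k * (m * (m - 1)) := by
      rw [← sm]; ring
    have h2 : k * (m * (m - 1)) ≤ k * m ^ 2 := by
      refine Nat.mul_le_mul_left _ ?_
      rw [pow_two]
      exact Nat.mul_le_mul_left _ (Nat.sub_le _ _)
    have h3 : m * f₀ ^ 2 = m * (f₀ * f₀) := by ring
    have h4 : u * (2 * T) = 2 * (u * T) := by ring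
    omega
  obtain ⟨fr₂, ht2, ho2, hc2⟩ := fill hE hu x y hxy
    (R - (Fintype.card (PairT u s) + (2 * (u * T) + m * (f₀ * f₀)) + ∑ r, x r))
  have hcard : Fintype.card (Fin R) = Fintype.card ((PairT u s ⊕ ((Fin 2 × Fin u × Fin T) ⊕
      (Fin m × Fin f₀ × Fin f₀))) ⊕ ((Σ r : Fin m, Fin (x r)) ⊕
      Fin (R - (Fintype.card (PairT u s) + (2 * (u * T) + m * (f₀ * f₀)) + ∑ r, x r)))) := by
    simp only [Fintype.card_sum, Fintype.card_prod, Fintype.card_fin, Fintype.card_sigma]
    omega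
  set fr₁ := Sum.elim (frP u m s) (Sum.elim (frC u m T) (frA u m f₀)) with hfr₁
  let ε := Fintype.equivOfCardEq hcard
  have hA : ∀ r, occ (frA u m f₀) r = 0 := fun r => by simp [occ, frA]
  have hA' : ∀ i, cnt (frA u m f₀) i = 0 := fun i => by simp [cnt, frA]
  have hocc : ∀ r, occ (frF u m D 1) r + occ (Sum.elim fr₁ fr₂) r = F₀ + r * k := by
    intro r
    rw [hfr₁, occ_sum, occ_sum, occ_sum, hA, ho2, ← hx r]
    ring
  have hcnt : ∀ i, 2 * D + cnt (Sum.elim fr₁ fr₂) i = e i := by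
    intro i
    rw [hfr₁, cnt_sum, cnt_sum, cnt_sum, hA', hc2, cnt_frC hm, ← hy i]
    ring
  have hthin : ∀ d, Thin (Sum.elim fr₁ fr₂ d) := by
    rintro ((p | c | c) | c)
    · exact Or.inr ⟨p.1.1, p.1.2, ne_of_lt p.2.1, fun r => rfl⟩
    · refine thin_of _ fun r r' h1 h2 => ?_
      simp only [hfr₁, Sum.elim_inl, Sum.elim_inr, frC, ne_eq, ite_eq_right_iff, reduceCtorEq,
        imp_false, not_not] at h1 h2
      exact Fin.ext (h1.trans h2.symm)
    · exact thin_of _ fun r r' h1 _ => absurd rfl h1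
    · exact thin_of _ (ht2 c)
  refine ⟨fun c => Sum.elim fr₁ fr₂ (ε c), fun c => hthin (ε c), ?_, ?_, ?_, ?_, ?_, ?_⟩
  · intro i
    rw [← hcnt i, cnt, ← Equiv.sum_comp ε]
    congr 1
    refine Finset.sum_congr rfl fun c _ => ?_
    rw [Finset.card_filter]
  · intro τ r
    have h1 := form_add (D := D) τ r
    have h2 := occ_add (fun c => Sum.elim fr₁ fr₂ (ε c)) r
    have h3 : occ (fun c => Sum.elim fr₁ fr₂ (ε c)) r = occ (Sum.elim fr₁ fr₂) r := by
      unfold occ
      exact Equiv.sum_comp ε (fun c => if Sum.elim fr₁ fr₂ c r = none then 0 else 1)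
    rw [h3, Fintype.card_fin] at h2
    have h4 := hocc r
    rw [Nat.sub_mul]
    beta_reduce at h2 ⊢
    omega
  · intro i j hij hg
    refine ⟨ε.symm (Sum.inl (Sum.inl ⟨(i, j), hij, hg⟩)), fun r => ?_⟩
    simp only [Equiv.apply_symm_apply]
    rfl
  · refine ⟨fun p => ε.symm (Sum.inl (Sum.inr (Sum.inl (0, p)))), fun p q h => ?_, fun p r => ?_⟩
    · simpa using h
    · simp only [Equiv.apply_symm_apply]
      rfl
  · refine ⟨fun p => ε.symm (Sum.inl (Sum.inr (Sum.inl (1, p)))), fun p q h => ?_, fun p r => ?_⟩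
    · simpa using h
    · simp only [Equiv.apply_symm_apply]
      rfl
  · refine ⟨fun p => ε.symm (Sum.inl (Sum.inr (Sum.inr p))), fun p q h => ?_, fun p r => ?_⟩
    · simpa using h
    · simp only [Equiv.apply_symm_apply]
      rfl

end Vale.Agent.P181.RG.H221
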