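import Vale.Agent.P181.RG.Defs

set_option autoImplicit false

/-!
# P181, RG [DES]: counting in patterns of columns
-/

namespace Vale.Agent.P181.RG.H221

open Finset Vale.Agent.P181.RG

/-- The number of columns with a free letter in the row `r`. -/
def occ {κ : Type} [Fintype κ] {u m : ℕ} (fr : κ → Fin m → Option (Fin u)) (r : Fin m) : ℕ :=
  ∑ c, if fr c r = none then 0 else 1

/-- The number of slots of the free letter `i`. -/
def cnt {κ : Type} [Fintype κ] {u m : ℕ} (fr : κ → Fin m → Option (Fin u)) (i : Fin u) : ℕ :=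
  ∑ c, ∑ r, if fr c r = some i then 1 else 0

theorem sum_cnt {κ : Type} [Fintype κ] {u m : ℕ} (fr : κ → Fin m → Option (Fin u)) :
    ∑ i, cnt fr i = ∑ r, occ fr r := by
  unfold cnt occ
  rw [Finset.sum_comm, Finset.sum_comm (s := (univ : Finset (Fin m)))]
  refine Finset.sum_congr rfl fun c _ => ?_
  rw [Finset.sum_comm]
  refine Finset.sum_congr rfl fun r _ => ?_
  cases h : fr c r with
  | none => simp
  | some i => simp

theorem occ_sum {κ κ' : Type} [Fintype κ] [Fintype κ'] {u m : ℕ}
    (f : κ → Fin m → Option (Fin u)) (g : κ' → Fin m → Option (Fin u)) (r : Fin m) :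
    occ (Sum.elim f g) r = occ f r + occ g r := by
  unfold occ
  rw [Fintype.sum_sum_type]
  rfl

theorem cnt_sum {κ κ' : Type} [Fintype κ] [Fintype κ'] {u m : ℕ}
    (f : κ → Fin m → Option (Fin u)) (g : κ' → Fin m → Option (Fin u)) (i : Fin u) :
    cnt (Sum.elim f g) i = cnt f i + cnt g i := by
  unfold cnt
  rw [Fintype.sum_sum_type]
  rfl

/-- Fill columns: prescribed numbers of free letters in every row and of every free letter. -/
theorem fill (hE : ExtRG) {u m : ℕ} (hu : 1 ≤ u) (x : Fin m → ℕ) (y : Fin u → ℕ)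
    (h : ∑ i, y i = ∑ r, x r) (Z : ℕ) :
    ∃ fr : ((Σ r : Fin m, Fin (x r)) ⊕ Fin Z) → Fin m → Option (Fin u),
      (∀ c r r', fr c r ≠ none → fr c r' ≠ none → r = r') ∧ (∀ r, occ fr r = x r) ∧
      ∀ i, cnt fr i = y i := by
  obtain ⟨g, -, hg⟩ := hE (Σ r : Fin m, Fin (x r)) (Fin u) y ∅ (fun _ => ⟨0, hu⟩)
    (by rw [h]; simp) (fun i => by simp)
  refine ⟨Sum.elim (fun s r => if r = s.1 then some (g s) else none) (fun _ _ => none),
    ?_, ?_, ?_⟩
  · rintro (s | z) r r' h1 h2
    · simp only [Sum.elim_inl, ne_eq, ite_eq_right_iff, reduceCtorEq, imp_false, not_not] at h1 h2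
      rw [h1, h2]
    · simp at h1
  · intro r
    rw [occ_sum]
    have h1 : occ (fun (_ : Fin Z) (_ : Fin m) => (none : Option (Fin u))) r = 0 := by
      simp [occ]
    rw [h1, add_zero, occ, Fintype.sum_sigma]
    rw [Finset.sum_eq_single r]
    · simp
    · intro r' _ hr
      simp [hr.symm]
    · simp
  · intro i
    rw [cnt_sum]
    have h1 : cnt (fun (_ : Fin Z) (_ : Fin m) => (none : Option (Fin u))) i = 0 := by
      simp [cnt]
    rw [h1, add_zero, cnt, ← hg i, Finset.card_filter]
    refine Finset.sum_congr rfl fun s _ => ?_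
    rw [Finset.sum_eq_single s.1]
    · simp
    · intro r _ hr
      simp [hr]
    · simp

/-- Pairs of free letters of one group. -/
abbrev PairT (u s : ℕ) : Type :=
  {p : Fin u × Fin u // p.1 < p.2 ∧ (p.1 : ℕ) / s = (p.2 : ℕ) / s}

/-- The pair columns. -/
def frP (u m s : ℕ) : PairT u s → Fin m → Option (Fin u) := fun p r =>
  if (r : ℕ) = 0 then some p.1.1 else if (r : ℕ) = 1 then some p.1.2 else none

/-- The columns with one free letter in the row `0` or `1`. -/
def frC (u m T : ℕ) : Fin 2 × Fin u × Fin T → Fin m → Option (Fin u) := fun c r =>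
  if (r : ℕ) = (c.1 : ℕ) then some c.2.1 else none

theorem cnt_frP {u m s : ℕ} (hs : 1 ≤ s) (hm : 3 ≤ m) (i : Fin u) : cnt (frP u m s) i ≤ s := by
  have h1 : ∀ p : PairT u s, (∑ r : Fin m, if frP u m s p r = some i then 1 else 0) =
      if p.1.1 = i ∨ p.1.2 = i then 1 else 0 := by
    intro p
    have hne : p.1.1 ≠ p.1.2 := ne_of_lt p.2.1
    have h0 : (⟨0, by omega⟩ : Fin m) ≠ ⟨1, by omega⟩ := by simp
    rw [← Finset.sum_subset (subset_univ {(⟨0, by omega⟩ : Fin m), ⟨1, by omega⟩})]
    · rw [Finset.sum_pair h0]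
      simp only [frP, if_true, Option.some.injEq, one_ne_zero, if_false]
      by_cases h1 : p.1.1 = i
      · have h2 : p.1.2 ≠ i := fun h => hne (h1.trans h.symm)
        simp [h1, h2]
      · simp [h1]
    · intro r _ hr
      simp only [mem_insert, mem_singleton, not_or] at hr
      have h1 : (r : ℕ) ≠ 0 := fun h => hr.1 (Fin.ext h)
      have h2 : (r : ℕ) ≠ 1 := fun h => hr.2 (Fin.ext h)
      simp [frP, h1, h2]
  unfold cnt
  simp_rw [h1]
  rw [← Finset.card_filter]
  calc (univ.filter fun p : PairT u s => p.1.1 = i ∨ p.1.2 = i).card ≤ (range s).card := by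
        refine Finset.card_le_card_of_injOn
          (fun p => ((if p.1.1 = i then p.1.2 else p.1.1 : Fin u) : ℕ) % s) ?_ ?_
        · intro p _
          simp only [coe_range, Set.mem_Iio]
          exact Nat.mod_lt _ hs
        · intro p hp q hq h
          simp only [coe_filter, mem_univ, true_and, Set.mem_ofPred_eq] at hp hq
          simp only at h
          have hg : ∀ p : PairT u s, (p.1.1 = i ∨ p.1.2 = i) →
              ((if p.1.1 = i then p.1.2 else p.1.1 : Fin u) : ℕ) / s = (i : ℕ) / s := by
            intro p hp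
            split_ifs with h1
            · rw [← h1]
              exact p.2.2.symm
            · rcases hp with h2 | h2
              · exact absurd h2 h1
              · rw [← h2]
                exact p.2.2
          have h3 : (if p.1.1 = i then p.1.2 else p.1.1 : Fin u) =
              (if q.1.1 = i then q.1.2 else q.1.1 : Fin u) := by
            ext
            rw [← Nat.div_add_mod ((if p.1.1 = i then p.1.2 else p.1.1 : Fin u) : ℕ) s,
              ← Nat.div_add_mod ((if q.1.1 = i then q.1.2 else q.1.1 : Fin u) : ℕ) s,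
              hg p hp, hg q hq, h]
          apply Subtype.ext
          have hp2 := p.2.1
          have hq2 := q.2.1
          by_cases h1 : p.1.1 = i
          · by_cases h2 : q.1.1 = i
            · rw [if_pos h1, if_pos h2] at h3
              exact Prod.ext (h1.trans h2.symm) h3
            · rw [if_pos h1, if_neg h2] at h3
              rcases hq with h4 | h4
              · exact absurd h4 h2
              · exfalso
                rw [h1, h3] at hp2
                rw [h4] at hq2
                exact lt_asymm hp2 hq2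
          · rcases hp with h4 | h4
            · exact absurd h4 h1
            by_cases h2 : q.1.1 = i
            · rw [if_neg h1, if_pos h2] at h3
              exfalso
              rw [h2, ← h3] at hq2
              rw [h4] at hp2
              exact lt_asymm hp2 hq2
            · rw [if_neg h1, if_neg h2] at h3
              rcases hq with h5 | h5
              · exact absurd h5 h2
              exact Prod.ext h3 (h4.trans h5.symm)
    _ = s := card_range _

theorem occ_frP_le {u m s : ℕ} (r : Fin m) : occ (frP u m s) r ≤ Fintype.card (PairT u s) := by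
  unfold occ
  calc (∑ c : PairT u s, if frP u m s c r = none then 0 else 1) ≤ ∑ c : PairT u s, 1 := by
        refine Finset.sum_le_sum fun c _ => ?_
        split_ifs <;> omega
    _ = Fintype.card (PairT u s) := by simp

theorem card_pair_le {u m s : ℕ} (hm : 3 ≤ m) :
    Fintype.card (PairT u s) ≤ ∑ r, occ (frP u m s) r := by
  calc Fintype.card (PairT u s) = occ (frP u m s) ⟨0, by omega⟩ := by
        simp [occ, frP]
    _ ≤ ∑ r, occ (frP u m s) r :=
        Finset.single_le_sum (f := fun r => occ (frP u m s) r) (fun _ _ => Nat.zero_le _)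
          (mem_univ _)

theorem card_pair {u s : ℕ} (hs : 1 ≤ s) : Fintype.card (PairT u s) ≤ u * s := by
  refine (card_pair_le (m := 3) le_rfl).trans ?_
  rw [← sum_cnt]
  calc ∑ i, cnt (frP u 3 s) i ≤ ∑ _i : Fin u, s :=
        Finset.sum_le_sum fun i _ => cnt_frP hs le_rfl i
    _ = u * s := by simp

theorem sum_fst {u : ℕ} (n : ℕ) (i : Fin u) :
    (∑ y : Fin u × Fin n, if y.1 = i then 1 else 0) = n := by
  rw [Fintype.sum_prod_type, Finset.sum_eq_single i]
  · simp
  · intro j _ hj
    simp [hj]
  · simp

theorem cnt_frC {u m T : ℕ} (hm : 3 ≤ m) (i : Fin u) : cnt (frC u m T) i = 2 * T := by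
  have h1 : ∀ c : Fin 2 × Fin u × Fin T, (∑ r : Fin m, if frC u m T c r = some i then 1 else 0) =
      if c.2.1 = i then 1 else 0 := by
    intro c
    have hc := c.1.2
    rw [Finset.sum_eq_single (⟨(c.1 : ℕ), by omega⟩ : Fin m)]
    · simp [frC]
    · intro r _ hr
      have h1 : (r : ℕ) ≠ (c.1 : ℕ) := fun h => hr (Fin.ext h)
      simp [frC, h1]
    · simp
  unfold cnt
  simp_rw [h1]
  rw [Fintype.sum_prod_type]
  simp only [sum_fst]
  simp

theorem occ_frC_le {u m T : ℕ} (r : Fin m) : occ (frC u m T) r ≤ u * T := by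
  unfold occ
  have h1 : ∀ c : Fin 2 × Fin u × Fin T, (if frC u m T c r = none then 0 else 1) =
      if (r : ℕ) = (c.1 : ℕ) then 1 else 0 := by
    intro c
    unfold frC
    split_ifs with h <;> simp_all
  simp_rw [h1]
  rw [Fintype.sum_prod_type, Fin.sum_univ_two, ← Finset.sum_add_distrib]
  calc (∑ x : Fin u × Fin T, ((if (r : ℕ) = ((0 : Fin 2) : ℕ) then 1 else 0) +
        if (r : ℕ) = ((1 : Fin 2) : ℕ) then 1 else 0)) ≤ ∑ x : Fin u × Fin T, 1 := by
        refine Finset.sum_le_sum fun x _ => ?_
        simp only [Fin.coe_ofNat_eq_mod, Nat.zero_mod, Nat.one_mod]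
        split_ifs <;> omega
    _ = u * T := by simp

/-- The form columns of the permutation `τ`. -/
def frF (u m D : ℕ) (τ : Equiv.Perm (Fin u)) : Fin u × Fin (2 * D) → Fin m → Option (Fin u) :=
  fun c r => if (r : ℕ) = al D (τ c.1) c.2 then some c.1 else none

theorem al_lt (D l s : ℕ) : al D l s < 3 := by
  unfold al
  split_ifs <;> omega

theorem cnt_frF {u m D : ℕ} (hm : 3 ≤ m) (τ : Equiv.Perm (Fin u)) (i : Fin u) :
    cnt (frF u m D τ) i = 2 * D := by
  have h1 : ∀ c : Fin u × Fin (2 * D), (∑ r : Fin m, if frF u m D τ c r = some i then 1 else 0) =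
      if c.1 = i then 1 else 0 := by
    intro c
    have hc := al_lt D (τ c.1) c.2
    rw [Finset.sum_eq_single (⟨al D (τ c.1) c.2, by omega⟩ : Fin m)]
    · simp [frF]
    · intro r _ hr
      have h1 : (r : ℕ) ≠ al D (τ c.1) c.2 := fun h => hr (Fin.ext h)
      simp [frF, h1]
    · simp
  unfold cnt
  simp_rw [h1]
  exact sum_fst _ i

/-- The row counts of the form columns do not depend on `τ`. -/
theorem occ_frF {u m D : ℕ} (τ : Equiv.Perm (Fin u)) (r : Fin m) :
    occ (frF u m D τ) r = occ (frF u m D 1) r := by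
  unfold occ
  rw [Fintype.sum_prod_type, Fintype.sum_prod_type]
  rw [← Equiv.sum_comp τ (fun i => ∑ y : Fin (2 * D),
    if frF u m D 1 (i, y) r = none then 0 else 1)]
  refine Finset.sum_congr rfl fun i _ => Finset.sum_congr rfl fun y _ => ?_
  by_cases h : (r : ℕ) = al D (τ i) y
  · simp [frF, h]
  · simp [frF, h]

theorem occ_frF_le {u m D : ℕ} (τ : Equiv.Perm (Fin u)) (r : Fin m) :
    occ (frF u m D τ) r ≤ u * (2 * D) := by
  unfold occ
  calc (∑ c : Fin u × Fin (2 * D), if frF u m D τ c r = none then 0 else 1) ≤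
      ∑ c : Fin u × Fin (2 * D), 1 := by
        refine Finset.sum_le_sum fun c _ => ?_
        split_ifs <;> omega
    _ = u * (2 * D) := by simp

end Vale.Agent.P181.RG.H221
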