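import Vale.Agent.P181.RG.H221.Des
import Vale.Agent.P181.RG.H968.Core
import Vale.Agent.P181.RG.H348.Mat3
import Vale.Agent.P181.RG.H452.Half
import Vale.Agent.P181.RG.H34.Par
import Vale.Agent.P181.RG.H201.Num

set_option autoImplicit false

/-!
# P181, RG: `CoreRG` without hypotheses
-/

namespace Vale.Agent.P181.RG.H221

theorem coreRG_closed : CoreRG := H968.coreRG H348.matRG des H452.half H34.par H201.numRG

end Vale.Agent.P181.RG.H221
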