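import Vale.Agent.P181.RG.H221.DesB
import Vale.Agent.P181.RG.H460.Ext
import Vale.Agent.P181.RG.H460.Peak

set_option autoImplicit false

/-!
# P181, RG [DES]
-/

namespace Vale.Agent.P181.RG.H221

/-- **[DES]** the design exists. -/
theorem des : DesRG := des_of H460.ext H460.peak

end Vale.Agent.P181.RG.H221
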