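import Vale.Agent.P181.RG.H221.DesA

set_option autoImplicit false

/-!
# P181, RG [DES-b]: the class letters
-/

namespace Vale.Agent.P181.RG.H221

open Finset Function Vale.Agent.P181.RG

/-- One row of the class letters. -/
theorem row (hE : ExtRG) {κ I : Type} [Fintype κ] [DecidableEq κ] [Fintype I] (k f : ℕ)
    (B : Finset κ) (hB : B.card = f * k) (δ : I → κ) (hδ : Injective δ) (hδB : ∀ i, δ i ∈ B)
    (v : I → Fin f) (hf : 0 < f) (hv : ∀ x, (∑ i, if v i = x then 1 else 0) ≤ k) :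
    ∃ h : κ → Fin f, (∀ i, h (δ i) = v i) ∧
      ∀ x, (∑ c, if c ∈ B ∧ h c = x then 1 else 0) = k := by
  classical
  have hx : ∀ x, ((univ.image fun i => (⟨δ i, hδB i⟩ : B)).filter fun c =>
      extend δ v (fun _ => ⟨0, hf⟩) c.1 = x).card ≤ k := by
    intro x
    refine le_trans ?_ (hv x)
    rw [← Finset.card_filter]
    calc _ ≤ ((univ.filter fun i => v i = x).image fun i => (⟨δ i, hδB i⟩ : B)).card := by
          refine Finset.card_le_card ?_
          intro c hc
          obtain ⟨h1, h2⟩ := mem_filter.1 hc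
          obtain ⟨i, -, rfl⟩ := mem_image.1 h1
          refine mem_image.2 ⟨i, mem_filter.2 ⟨mem_univ _, ?_⟩, rfl⟩
          rw [← h2]
          exact (hδ.extend_apply _ _ _).symm
      _ ≤ _ := Finset.card_image_le
  obtain ⟨g, hg1, hg2⟩ := hE B (Fin f) (fun _ => k) (univ.image fun i => (⟨δ i, hδB i⟩ : B))
    (fun c => extend δ v (fun _ => ⟨0, hf⟩) c.1) (by simp [hB]) hx
  · refine ⟨fun c => if hc : c ∈ B then g ⟨c, hc⟩ else ⟨0, hf⟩, fun i => ?_, fun x => ?_⟩
    · simp only
      rw [dif_pos (hδB i), hg1 ⟨δ i, hδB i⟩ (mem_image.2 ⟨i, mem_univ _, rfl⟩)]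
      exact hδ.extend_apply _ _ _
    · rw [← hg2 x, ← Finset.card_filter]
      symm
      refine Finset.card_bij (fun c _ => c.1) ?_ ?_ ?_
      · intro c hc
        have h2 : g c = x := (mem_filter.1 hc).2
        refine mem_filter.2 ⟨mem_univ _, c.2, ?_⟩
        simp only
        rw [dif_pos c.2]
        exact h2
      · intro c _ c' _ hcc
        exact Subtype.ext hcc
      · intro c hc
        obtain ⟨-, h1, h2⟩ := mem_filter.1 hc
        simp only at h2
        rw [dif_pos h1] at h2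
        exact ⟨⟨c, h1⟩, mem_filter.2 ⟨mem_univ _, h2⟩, rfl⟩

/-- Residues. -/
theorem res (M f x : ℕ) : (∑ n : Fin M, if (n : ℕ) % f = x then 1 else 0) ≤ M / f + 1 := by
  rw [← Finset.card_filter]
  calc (univ.filter fun n : Fin M => (n : ℕ) % f = x).card ≤ (range (M / f + 1)).card := by
        refine Finset.card_le_card_of_injOn (fun n => (n : ℕ) / f) ?_ ?_
        · intro n hn
          have : (n : ℕ) / f ≤ M / f := Nat.div_le_div_right n.2.le
          simp only [coe_range, Set.mem_Iio]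
          omega
        · intro n hn n' hn' h
          have h1 : (n : ℕ) % f = x := (mem_filter.1 hn).2
          have h2 : (n' : ℕ) % f = x := (mem_filter.1 hn').2
          simp only at h
          ext
          rw [← Nat.div_add_mod (n : ℕ) f, ← Nat.div_add_mod (n' : ℕ) f, h, h1, h2]
    _ = M / f + 1 := card_range _

/-- The labels which are prescribed in the row `r`. -/
def vv (u m T f₀ f : ℕ) (r : Fin m) (hf : 0 < f) :
    (Fin u × Fin T) ⊕ (Fin m × Fin f₀ × Fin f₀) → Fin f
  | Sum.inl p => ⟨(finProdFinEquiv p : ℕ) % f, Nat.mod_lt _ hf⟩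
  | Sum.inr q => ⟨((if q.1 = r then q.2.1 else q.2.2 : Fin f₀) : ℕ) % f, Nat.mod_lt _ hf⟩

theorem vv_le (u m T f₀ f : ℕ) (r : Fin m) (hf : 0 < f) (h2 : f₀ < 2 * f) (x : Fin f) :
    (∑ i, if vv u m T f₀ f r hf i = x then 1 else 0) ≤ u * T / f + 1 + m * (f₀ * 2) := by
  have hres : (∑ n : Fin f₀, if (n : ℕ) % f = x then 1 else 0) ≤ 2 := by
    have h3 := res f₀ f x
    have h4 : f₀ / f < 2 := Nat.div_lt_of_lt_mul (by rw [mul_comm]; exact h2)
    omega
  rw [Fintype.sum_sum_type]
  refine Nat.add_le_add ?_ ?_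
  · refine le_trans (le_of_eq ?_) (res (u * T) f x)
    rw [← Equiv.sum_comp (finProdFinEquiv (m := u) (n := T))]
    refine Finset.sum_congr rfl fun p _ => ?_
    simp only [vv, Fin.ext_iff]
  · rw [Fintype.sum_prod_type]
    calc _ ≤ ∑ _r0 : Fin m, f₀ * 2 := by
          refine Finset.sum_le_sum fun r0 _ => ?_
          rw [Fintype.sum_prod_type]
          by_cases h : r0 = r
          · simp only [vv, h, if_true, Fin.ext_iff, sum_const, card_univ, Fintype.card_fin,
              smul_eq_mul]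
            rw [← Finset.mul_sum]
            exact Nat.mul_le_mul_left _ hres
          · simp only [vv, h, if_false, Fin.ext_iff]
            calc _ ≤ ∑ _t : Fin f₀, 2 := Finset.sum_le_sum fun _ _ => hres
              _ = f₀ * 2 := by simp
      _ = m * (f₀ * 2) := by simp

theorem desB (hE : ExtRG) (hP : PeakRG) (u m D R k f₀ T s : ℕ) (e : Fin u → ℕ) (hm : 3 ≤ m)
    (hk1 : 4 * (u * T) ≤ (f₀ - m) * k) (hk2 : 8 * (m * f₀) + 4 ≤ k) (hT1 : u / s + 1 + m ≤ T)
    (hT2 : T + m ≤ f₀) (h : Pat u m D R k f₀ T s e) : RDes u m D R k (fun r => f₀ - r) e := by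
  classical
  obtain ⟨fr, thin, hcnt, hocc, hpair, ⟨γ0, g0i, hγ0⟩, ⟨γ1, g1i, hγ1⟩, ⟨γA, gAi, hγA⟩⟩ := h
  set fm : Equiv.Perm (Fin u) → (Fin u × Fin (2 * D)) ⊕ Fin R → Fin m → Option (Fin u) :=
    fun τ => Sum.elim (frF u m D τ) fr with hfm
  have hTm : m + 1 ≤ T := le_trans (by have := Nat.zero_le (u / s); omega) hT1
  have hf : ∀ r : Fin m, 0 < f₀ - r := fun r => by have := r.2; omega
  -- the prescribed columns of the row `r`
  set δ : Fin m → (Fin u × Fin T) ⊕ (Fin m × Fin f₀ × Fin f₀) →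
      (Fin u × Fin (2 * D)) ⊕ Fin R := fun r =>
    Sum.elim (fun p => Sum.inr (if (r : ℕ) = 0 then γ1 p else γ0 p)) (fun q => Sum.inr (γA q))
    with hδ
  have hsep0 : ∀ p q, γ0 p ≠ γA q := fun p q he => by
    have h1 := hγ0 p ⟨0, by omega⟩
    rw [he, hγA] at h1
    simp at h1
  have hsep1 : ∀ p q, γ1 p ≠ γA q := fun p q he => by
    have h1 := hγ1 p ⟨1, by omega⟩
    rw [he, hγA] at h1
    simp at h1
  have hδi : ∀ r, Injective (δ r) := by
    rintro r (p | p) (q | q) he
    · simp only [hδ, Sum.elim_inl, Sum.inr.injEq] at he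
      split_ifs at he
      · rw [g1i he]
      · rw [g0i he]
    · simp only [hδ, Sum.elim_inl, Sum.elim_inr, Sum.inr.injEq] at he
      split_ifs at he
      · exact absurd he (hsep1 _ _)
      · exact absurd he (hsep0 _ _)
    · simp only [hδ, Sum.elim_inl, Sum.elim_inr, Sum.inr.injEq] at he
      split_ifs at he
      · exact absurd he.symm (hsep1 _ _)
      · exact absurd he.symm (hsep0 _ _)
    · simp only [hδ, Sum.elim_inr, Sum.inr.injEq] at he
      rw [gAi he]
  have hδn : ∀ τ r i, fm τ (δ r i) r = none := by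
    rintro τ r (p | q)
    · simp only [hfm, hδ, Sum.elim_inl, Sum.elim_inr]
      split_ifs with h0
      · rw [hγ1, h0]
        simp
      · rw [hγ0, if_neg h0]
    · simp only [hfm, hδ, Sum.elim_inr]
      exact hγA _ _
  have hB : ∀ τ r, (univ.filter fun c => fm τ c r = none).card = (f₀ - r) * k := by
    intro τ r
    rw [← hocc τ r, Finset.card_filter, Fintype.sum_sum_type, Finset.card_filter,
      Finset.card_filter]
    congr 1
    refine Finset.sum_congr rfl fun p _ => ?_
    simp only [hfm, Sum.elim_inl, frF]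
    split_ifs with h1 h2 <;> simp_all
  have hrow : ∀ (τ : Equiv.Perm (Fin u)) (r : Fin m),
      ∃ h : (Fin u × Fin (2 * D)) ⊕ Fin R → Fin (f₀ - r),
        (∀ i, h (δ r i) = vv u m T f₀ (f₀ - r) r (hf r) i) ∧
        ∀ x, (∑ c, if c ∈ (univ.filter fun c => fm τ c r = none) ∧ h c = x then 1 else 0) = k := by
    intro τ r
    refine row hE k (f₀ - r) _ (hB τ r) (δ r) (hδi r)
      (fun i => mem_filter.2 ⟨mem_univ _, hδn τ r i⟩) _ (hf r) fun x => ?_
    refine (vv_le u m T f₀ (f₀ - r) r (hf r) (by have := r.2; omega) x).trans ?_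
    have h1 : u * T / (f₀ - r) * 4 ≤ k := by
      have h2 : u * T / (f₀ - r) * (f₀ - r) ≤ u * T := Nat.div_mul_le_self _ _
      have h3 : (f₀ - m) * k ≤ (f₀ - r) * k := Nat.mul_le_mul_right _ (by have := r.2; omega)
      refine Nat.le_of_mul_le_mul_left ?_ (hf r)
      calc (f₀ - r) * (u * T / (f₀ - r) * 4) = 4 * (u * T / (f₀ - r) * (f₀ - r)) := by ring
        _ ≤ 4 * (u * T) := Nat.mul_le_mul_left _ h2
        _ ≤ (f₀ - r) * k := hk1.trans h3
    have h2 : m * (f₀ * 2) = 2 * (m * f₀) := by ring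
    omega
  choose h hh1 hh2 using hrow
  set K : Equiv.Perm (Fin u) → (Fin u × Fin (2 * D)) ⊕ Fin R → (r : Fin m) →
      Lt u m (fun r => f₀ - r) := fun τ c r => (fm τ c r).elim (Sum.inr ⟨r, h τ r c⟩) Sum.inl
    with hK
  have Kn : ∀ τ c r, fm τ c r = none → K τ c r = Sum.inr ⟨r, h τ r c⟩ := by
    intro τ c r h0
    simp only [hK]
    rw [h0]
    rfl
  have Ks : ∀ τ c r i, fm τ c r = some i → K τ c r = Sum.inl i := by
    intro τ c r i h0
    simp only [hK]
    rw [h0]
    rfl
  refine ⟨fr, K, thin, ?_, ?_, ?_, ?_, ?_⟩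
  · intro τ i s' r
    split_ifs with h0
    · exact Ks _ _ _ _ (by simp [hfm, frF, h0])
    · exact ⟨_, Kn _ _ _ (by simp [hfm, frF, h0])⟩
  · exact fun τ c r => ⟨fun i hi => Ks _ _ _ _ hi, fun hi => ⟨_, Kn _ _ _ hi⟩⟩
  · intro τ i
    have h0 : ∀ c r, K τ c r = Sum.inl i ↔ fm τ c r = some i := by
      intro c r
      cases h1 : fm τ c r with
      | none => rw [Kn _ _ _ h1]; simp
      | some j => rw [Ks _ _ _ _ h1]; simp
    simp only [h0]
    rw [Fintype.sum_sum_type, ← hcnt i]
    congr 1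
    refine Eq.trans ?_ (cnt_frF (D := D) hm τ i)
    rw [cnt]
    refine Finset.sum_congr rfl fun c _ => ?_
    rw [Finset.card_filter]
    rfl
  · rintro τ ⟨r₀, j⟩
    rw [← hh2 τ r₀ j]
    refine Finset.sum_congr rfl fun c _ => ?_
    rw [Finset.card_filter, Finset.sum_eq_single r₀]
    · cases h1 : fm τ c r₀ with
      | none =>
        rw [Kn _ _ _ h1]
        simp [h1]
      | some i =>
        rw [Ks _ _ _ _ h1]
        simp [h1]
    · intro r _ hr
      rw [if_neg]
      cases h1 : fm τ c r with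
      | none =>
        rw [Kn _ _ _ h1]
        intro h2
        exact hr (congrArg Sigma.fst (Sum.inr.inj h2))
      | some i =>
        rw [Ks _ _ _ _ h1]
        simp
    · simp
  · intro τ σ hσ
    refine hP u m f₀ T (u / s + 1) (fun i => ⟨(i : ℕ) / s, Nat.lt_succ_of_le
      (Nat.div_le_div_right i.2.le)⟩)
      (fun x y => ∃ c r r', r ≠ r' ∧ K τ c r = x ∧ K τ c r' = y) hT1 hT2 ?_ ?_ ?_ ?_ σ ?_
    · rintro x y ⟨c, r, r', h0, h1, h2⟩
      exact ⟨c, r', r, h0.symm, h2, h1⟩
    · rintro ⟨r, j⟩ ⟨r', j'⟩ h0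
      have hr := r.2
      have hr' := r'.2
      refine ⟨Sum.inr (γA (r, ⟨(j : ℕ), by have := j.2; omega⟩, ⟨(j' : ℕ), by
        have := j'.2; omega⟩)), r, r', h0, ?_, ?_⟩
      · rw [Kn _ _ _ (by simp only [hfm, Sum.elim_inr]; exact hγA _ _)]
        have h1 := hh1 τ r (Sum.inr (r, ⟨(j : ℕ), by have := j.2; omega⟩, ⟨(j' : ℕ), by
          have := j'.2; omega⟩))
        simp only [hδ, Sum.elim_inr] at h1
        rw [h1]
        congr 2
        ext
        simp only [vv, if_true]
        exact Nat.mod_eq_of_lt j.2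
      · rw [Kn _ _ _ (by simp only [hfm, Sum.elim_inr]; exact hγA _ _)]
        have h1 := hh1 τ r' (Sum.inr (r, ⟨(j : ℕ), by have := j.2; omega⟩, ⟨(j' : ℕ), by
          have := j'.2; omega⟩))
        simp only [hδ, Sum.elim_inr] at h1
        rw [h1]
        congr 2
        ext
        simp only [vv]
        rw [if_neg h0]
        exact Nat.mod_eq_of_lt j'.2
    · intro i j hij hg
      have hg' : (i : ℕ) / s = (j : ℕ) / s := congrArg Fin.val hg
      have h01 : (⟨0, by omega⟩ : Fin m) ≠ ⟨1, by omega⟩ := by simp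
      rcases lt_or_gt_of_ne hij with h0 | h0
      · obtain ⟨c, hc⟩ := hpair i j h0 hg'
        exact ⟨Sum.inr c, ⟨0, by omega⟩, ⟨1, by omega⟩, h01,
          Ks _ _ _ _ (by simp only [hfm, Sum.elim_inr]; rw [hc]; simp),
          Ks _ _ _ _ (by simp only [hfm, Sum.elim_inr]; rw [hc]; simp)⟩
      · obtain ⟨c, hc⟩ := hpair j i h0 hg'.symm
        exact ⟨Sum.inr c, ⟨1, by omega⟩, ⟨0, by omega⟩, h01.symm,
          Ks _ _ _ _ (by simp only [hfm, Sum.elim_inr]; rw [hc]; simp),
          Ks _ _ _ _ (by simp only [hfm, Sum.elim_inr]; rw [hc]; simp)⟩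
    · intro i r
      have hr := r.2
      refine ⟨univ.image fun t : Fin T => vv u m T f₀ (f₀ - r) r (hf r) (Sum.inl (i, t)), ?_, ?_⟩
      · rw [Finset.card_image_of_injective, card_univ, Fintype.card_fin]
        intro t t' ht
        have h1 : ((t : ℕ) + T * i) % (f₀ - r) = ((t' : ℕ) + T * i) % (f₀ - r) := by
          simpa [vv, Fin.ext_iff] using ht
        have h2 : (t : ℕ) ≡ t' [MOD f₀ - r] := Nat.ModEq.add_right_cancel' _ h1
        have h3 := t.2
        have h4 := t'.2
        ext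
        exact Nat.ModEq.eq_of_lt_of_lt h2 (by omega) (by omega)
      · intro j hj
        obtain ⟨t, -, rfl⟩ := mem_image.1 hj
        by_cases h0 : (r : ℕ) = 0
        · refine ⟨Sum.inr (γ1 (i, t)), ⟨1, by omega⟩, r, ?_, ?_, ?_⟩
          · intro h1
            rw [← h1] at h0
            simp at h0
          · exact Ks _ _ _ _ (by simp only [hfm, Sum.elim_inr]; rw [hγ1]; simp)
          · rw [Kn _ _ _ (by simp only [hfm, Sum.elim_inr]; rw [hγ1, h0]; simp)]
            have h1 := hh1 τ r (Sum.inl (i, t))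
            simp only [hδ, Sum.elim_inl, h0, if_true] at h1
            rw [← h1]
        · refine ⟨Sum.inr (γ0 (i, t)), ⟨0, by omega⟩, r, ?_, ?_, ?_⟩
          · intro h1
            rw [← h1] at h0
            simp at h0
          · exact Ks _ _ _ _ (by simp only [hfm, Sum.elim_inr]; rw [hγ0]; simp)
          · rw [Kn _ _ _ (by simp only [hfm, Sum.elim_inr]; rw [hγ0, if_neg h0])]
            have h1 := hh1 τ r (Sum.inl (i, t))
            simp only [hδ, Sum.elim_inl, h0, if_false] at h1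
            rw [← h1]
    · rintro x y ⟨c, r, r', h0, rfl, rfl⟩
      exact hσ c r r' h0

/-- **[DES]** from [EXT] and [PEAK]. -/
theorem des_of (hE : ExtRG) (hP : PeakRG) : DesRG := by
  intro u m D R k f₀ F₀ T s e hm hu hs _ hR he hei hF hb hk1 hk2 hT1 hT2
  exact desB hE hP u m D R k f₀ T s e hm hk1 hk2 hT1 hT2
    (desA hE u m D R k f₀ F₀ T s e hm hu hs hR he hei hF hb)

end Vale.Agent.P181.RG.H221
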