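import Vale.Agent.P181.RG.H221.Core
import Vale.Agent.P181.RG.H410.Fin
import Vale.Agent.P181.PLX.Main

set_option autoImplicit false

/-!
# P181, RG: `FinRG` without hypotheses
-/

namespace Vale.Agent.P181.RG.H221

theorem plh : H410.PLH := by
  obtain ⟨C, c, h⟩ := PLX.poly_result.{0}
  exact ⟨C, c, fun a b hb n lam => (h a b hb).2 n lam⟩

theorem finRG_closed : FinRG := H410.fin_of coreRG_closed plh

end Vale.Agent.P181.RG.H221
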